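import Mathlib

/-!
# P279: Nagata's inequality for curves of degree up to about `√(2 r)`

A polynomial with prescribed multiplicities on a `K × K` grid has multiplicity sum at most `d K`.
Specialising the points with positive multiplicity to such a grid gives Nagata's inequality for
points with algebraically independent coordinates as soon as `d (d + 3) ≤ 2 K ^ 2` and `K ^ 2 < r`.
-/

namespace Vale.Agent.Results.P279.LowDegree

open Polynomial Finset
open scoped Matrix

noncomputable section

variable {F : Type*} [Field F]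

/-- The polynomial in `x`, `y` has degree at most `d`. -/
def DegLE {R : Type*} [CommRing R] (f : Polynomial (Polynomial R)) (d : ℕ) : Prop :=
  ∀ i j : ℕ, d < i + j → (f.coeff i).coeff j = 0

/-- The Taylor coefficient of order `(i, j)` at the point `(a, b)`. -/
def tcoeff {R : Type*} [CommRing R] (f : Polynomial (Polynomial R)) (a b : R) (i j : ℕ) : R :=
  (taylor b ((taylor (C a) f).coeff i)).coeff j

/-- The multiplicity at `(a, b)` is at least `m`. -/
def MultGE {R : Type*} [CommRing R] (f : Polynomial (Polynomial R)) (a b : R) (m : ℕ) : Prop :=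
  ∀ i j : ℕ, i + j < m → tcoeff f a b i j = 0

/-- The coefficient of `(y - b) ^ μ`, as a polynomial in `x`. -/
def slice (f : Polynomial (Polynomial F)) (b : F) (μ : ℕ) : Polynomial F :=
  ∑ j ∈ range (f.natDegree + 1), monomial j ((taylor b (f.coeff j)).coeff μ)

theorem coeff_slice (f : Polynomial (Polynomial F)) (b : F) (μ j : ℕ) :
    (slice f b μ).coeff j = (taylor b (f.coeff j)).coeff μ := by
  simp only [slice, finsetSum_coeff, coeff_monomial, Finset.sum_ite_eq', Finset.mem_range]
  split_ifs with h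
  · rfl
  · rw [show f.coeff j = 0 from coeff_eq_zero_of_natDegree_lt (by omega), map_zero, coeff_zero]

theorem slice_add (f g : Polynomial (Polynomial F)) (b : F) (μ : ℕ) :
    slice (f + g) b μ = slice f b μ + slice g b μ := by
  ext j; simp [coeff_slice]

theorem coeff_taylor_monomial {R : Type*} [CommRing R] (a c : R) (n i : ℕ) :
    (taylor a (monomial n c)).coeff i = c * (a ^ (n - i) * (n.choose i : R)) := by
  rw [taylor_monomial, coeff_C_mul, coeff_X_add_C_pow]

theorem tcoeff_monomial {R : Type*} [CommRing R] (a b : R) (g : Polynomial R) (n i j : ℕ) :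
    tcoeff (monomial n g) a b i j = (taylor b g).coeff j * (a ^ (n - i) * (n.choose i : R)) := by
  rw [tcoeff, coeff_taylor_monomial, ← C_pow, ← C_eq_natCast, ← C_mul, mul_comm g, taylor_mul,
    taylor_C, coeff_C_mul, mul_comm]

theorem taylor_slice (f : Polynomial (Polynomial F)) (a b : F) (i μ : ℕ) :
    (taylor a (slice f b μ)).coeff i = tcoeff f a b i μ := by
  induction f using Polynomial.induction_on' with
  | add p q hp hq => simp only [slice_add, tcoeff, map_add, coeff_add] at *; rw [hp, hq]
  | monomial n g =>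
    have h : slice (monomial n g) b μ = monomial n ((taylor b g).coeff μ) := by
      ext j
      rw [coeff_slice, coeff_monomial, coeff_monomial]
      split_ifs <;> simp
    rw [h, coeff_taylor_monomial, tcoeff_monomial]

/-- The sum of the root multiplicities on a finite set is at most the degree. -/
theorem sum_rootMultiplicity_le (h : Polynomial F) (S : Finset F) :
    ∑ a ∈ S, h.rootMultiplicity a ≤ h.natDegree := by
  classical
  refine le_trans ?_ (card_roots' h)
  simp only [← count_roots]
  calc ∑ a ∈ S, h.roots.count a ≤ ∑ a ∈ S ∪ h.roots.toFinset, h.roots.count a :=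
        Finset.sum_le_sum_of_subset Finset.subset_union_left
    _ = Multiset.card h.roots :=
        Multiset.sum_count_eq_card fun x hx => Finset.mem_union_right _ (Multiset.mem_toFinset.2 hx)

/-- Multiplicities on a `K × K` grid. -/
theorem grid_bound {f : Polynomial (Polynomial F)} {d K : ℕ} (hf : DegLE f d) (hf0 : f ≠ 0)
    (A B : Finset F) (hA : A.card ≤ K) (hB : B.card ≤ K) (m : F → F → ℕ)
    (hm : ∀ a ∈ A, ∀ b ∈ B, MultGE f a b (m a b)) :
    ∑ b ∈ B, ∑ a ∈ A, m a b ≤ d * K := by
  classical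
  set t := f.natDegree with ht
  have hg : f.coeff t ≠ 0 := leadingCoeff_ne_zero.2 hf0
  have hgd : t + (f.coeff t).natDegree ≤ d := by
    by_contra h
    exact hg (leadingCoeff_eq_zero.1 (hf t (f.coeff t).natDegree (by omega)))
  have key : ∀ b ∈ B, ∑ a ∈ A, m a b ≤ t + K * (f.coeff t).rootMultiplicity b := fun b hb => by
    set μ := (f.coeff t).rootMultiplicity b with hμ
    set h := slice f b μ
    have hlc : h.coeff t ≠ 0 := by
      rw [coeff_slice]
      have h0 := Polynomial.natTrailingDegree_le_natDegree (taylor b (f.coeff t))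
      rw [show μ = (taylor b (f.coeff t)).natTrailingDegree by
        rw [hμ, rootMultiplicity_eq_natTrailingDegree, taylor_apply]]
      exact coeff_natTrailingDegree_ne_zero.2 ((taylor_injective b).ne_iff' (map_zero _) |>.2 hg)
    have h0 : h ≠ 0 := fun e => hlc (by rw [e, coeff_zero])
    have hdeg : h.natDegree ≤ t := natDegree_le_iff_coeff_eq_zero.2 fun j hj => by
      rw [coeff_slice, coeff_eq_zero_of_natDegree_lt hj, map_zero, coeff_zero]
    have hroot : ∀ a ∈ A, m a b ≤ μ + h.rootMultiplicity a := fun a ha => by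
      rw [rootMultiplicity_eq_natTrailingDegree, ← taylor_apply]
      by_contra hlt
      refine coeff_natTrailingDegree_ne_zero.2 ((taylor_injective a).ne_iff' (map_zero _) |>.2 h0)
        ?_
      rw [taylor_slice]
      exact hm a ha b hb _ _ (by omega)
    calc ∑ a ∈ A, m a b ≤ ∑ a ∈ A, (μ + h.rootMultiplicity a) := Finset.sum_le_sum hroot
      _ ≤ K * μ + t := by
        rw [Finset.sum_add_distrib, Finset.sum_const, smul_eq_mul]
        exact Nat.add_le_add (Nat.mul_le_mul_right _ hA) ((sum_rootMultiplicity_le h A).trans hdeg)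
      _ = t + K * μ := by ring
  calc ∑ b ∈ B, ∑ a ∈ A, m a b ≤ ∑ b ∈ B, (t + K * (f.coeff t).rootMultiplicity b) :=
        Finset.sum_le_sum key
    _ ≤ K * t + K * (d - t) := by
        rw [Finset.sum_add_distrib, Finset.sum_const, smul_eq_mul, ← Finset.mul_sum]
        exact Nat.add_le_add (Nat.mul_le_mul_right _ hB) (Nat.mul_le_mul_left _
          ((sum_rootMultiplicity_le _ B).trans (by omega)))
    _ = d * K := by rw [← Nat.mul_add, Nat.add_sub_cancel' (by omega), mul_comm]

/-- The exponents of degree at most `d`. -/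
abbrev Expo (d : ℕ) := {p : Fin (d + 1) × Fin (d + 1) // (p.1 : ℕ) + (p.2 : ℕ) ≤ d}

/-- The polynomial with given coefficients. -/
def polyOf {R : Type*} [CommRing R] {d : ℕ} (c : Expo d → R) : Polynomial (Polynomial R) :=
  ∑ t : Expo d, monomial (t.1.1 : ℕ) (monomial (t.1.2 : ℕ) (c t))

theorem polyOf_degLE {R : Type*} [CommRing R] {d : ℕ} (c : Expo d → R) : DegLE (polyOf c) d := by
  intro i j hij
  simp only [polyOf, finsetSum_coeff, coeff_monomial]
  refine Finset.sum_eq_zero fun t _ => ?_
  split_ifs with h1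
  · rw [coeff_monomial, if_neg (by have := t.2; omega)]
  · exact coeff_zero _

theorem coeff_polyOf {R : Type*} [CommRing R] {d : ℕ} (c : Expo d → R) (t : Expo d) :
    ((polyOf c).coeff (t.1.1 : ℕ)).coeff (t.1.2 : ℕ) = c t := by
  classical
  simp only [polyOf, finsetSum_coeff, coeff_monomial]
  rw [Finset.sum_eq_single t]
  · simp
  · intro s _ hs
    split_ifs with h1
    · rw [coeff_monomial, if_neg fun h2 => hs (Subtype.ext (Prod.ext (Fin.ext h1) (Fin.ext h2)))]
    · exact coeff_zero _
  · simp

theorem eq_polyOf {R : Type*} [CommRing R] {d : ℕ} {f : Polynomial (Polynomial R)}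
    (hf : DegLE f d) : f = polyOf fun t : Expo d => (f.coeff t.1.1).coeff t.1.2 := by
  ext i j
  by_cases h : i + j ≤ d
  · exact (coeff_polyOf (fun t : Expo d => (f.coeff t.1.1).coeff t.1.2)
      ⟨(⟨i, by omega⟩, ⟨j, by omega⟩), h⟩).symm
  · rw [hf i j (by omega), polyOf_degLE _ i j (by omega)]

theorem tcoeff_polyOf {R : Type*} [CommRing R] {d : ℕ} (c : Expo d → R) (a b : R) (i j : ℕ) :
    tcoeff (polyOf c) a b i j = ∑ t : Expo d, c t * (((t.1.1 : ℕ).choose i : R) *
      ((t.1.2 : ℕ).choose j : R) * (a ^ ((t.1.1 : ℕ) - i) * b ^ ((t.1.2 : ℕ) - j))) := by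
  have h : tcoeff (polyOf c) a b i j
      = ∑ t : Expo d, tcoeff (monomial (t.1.1 : ℕ) (monomial (t.1.2 : ℕ) (c t))) a b i j := by
    simp only [tcoeff, polyOf, map_sum, finsetSum_coeff]
  rw [h]
  refine Finset.sum_congr rfl fun t _ => ?_
  rw [tcoeff_monomial, coeff_taylor_monomial]
  ring

/-- If some rational configuration admits no curve with the given multiplicities, then neither does
a configuration with algebraically independent coordinates. -/
theorem specialize {s : Type*} [Fintype s] {d : ℕ} (m : s → ℕ) (g : s → Fin 2 → ℚ)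
    (hg : ∀ f : Polynomial (Polynomial ℚ), DegLE f d → (∀ i, MultGE f (g i 0) (g i 1) (m i)) →
      f = 0)
    (a : s → Fin 2 → ℂ) (ha : AlgebraicIndependent ℚ fun p : s × Fin 2 => a p.1 p.2)
    (f : Polynomial (Polynomial ℂ)) (hf : DegLE f d)
    (hm : ∀ i, MultGE f (a i 0) (a i 1) (m i)) : f = 0 := by
  classical
  set N := ∑ i, m i with hN
  let E : (s × Fin N × Fin N) → Expo d → MvPolynomial (s × Fin 2) ℚ := fun r t =>
    if (r.2.1 : ℕ) + (r.2.2 : ℕ) < m r.1 then
      MvPolynomial.C (((t.1.1 : ℕ).choose r.2.1 : ℚ) * ((t.1.2 : ℕ).choose r.2.2 : ℚ)) *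
        (MvPolynomial.X (r.1, 0) ^ ((t.1.1 : ℕ) - r.2.1) *
          MvPolynomial.X (r.1, 1) ^ ((t.1.2 : ℕ) - r.2.2))
    else 0
  let M : Matrix (s × Fin N × Fin N) (Expo d) (MvPolynomial (s × Fin 2) ℚ) := Matrix.of E
  have hmi : ∀ i, m i ≤ N := fun i => Finset.single_le_sum (fun j _ => Nat.zero_le _) (mem_univ i)
  set M0 := M.map (MvPolynomial.eval fun p : s × Fin 2 => g p.1 p.2) with hM0
  have hinj : LinearMap.ker (Matrix.toLin' M0) = ⊥ := by
    refine LinearMap.ker_eq_bot'.2 fun c hc => ?_
    have h0 : polyOf c = 0 := by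
      refine hg _ (polyOf_degLE c) fun i u v huv => ?_
      have := congrFun hc (i, ⟨u, by have := hmi i; omega⟩, ⟨v, by have := hmi i; omega⟩)
      rw [tcoeff_polyOf]
      rw [Pi.zero_apply, Matrix.toLin'_apply, Matrix.mulVec, dotProduct] at this
      rw [← this]
      refine Finset.sum_congr rfl fun t _ => ?_
      simp [hM0, M, E, huv]
      ring
    ext t
    have := coeff_polyOf c t
    rw [h0] at this
    simpa using this.symm
  obtain ⟨L, hL⟩ := LinearMap.exists_leftInverse_of_injective _ hinj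
  set B := LinearMap.toMatrix' L with hB
  have hBM : B * M0 = 1 := by
    rw [hB, show M0 = LinearMap.toMatrix' (Matrix.toLin' M0) from
      (LinearMap.toMatrix'_toLin' M0).symm, ← LinearMap.toMatrix'_comp, hL, LinearMap.toMatrix'_id]
  set Q : Matrix (Expo d) (Expo d) (MvPolynomial (s × Fin 2) ℚ) :=
    B.map (MvPolynomial.C (R := ℚ) (σ := s × Fin 2)) * M with hQ
  set P := Q.det with hP
  have hP0 : P ≠ 0 := fun h => by
    have := congrArg (MvPolynomial.eval fun p : s × Fin 2 => g p.1 p.2) h
    rw [hP, RingHom.map_det, map_zero, RingHom.mapMatrix_apply, hQ, Matrix.map_mul] at this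
    have e : (B.map MvPolynomial.C).map
        (MvPolynomial.eval fun p : s × Fin 2 => g p.1 p.2) = B := by
      ext i j; simp
    rw [e, ← hM0, hBM, Matrix.det_one] at this
    exact one_ne_zero this
  set φ := (MvPolynomial.aeval (R := ℚ) fun p : s × Fin 2 => a p.1 p.2).toRingHom with hφ
  have hdet : (Q.map φ).det ≠ 0 := by
    rw [← RingHom.mapMatrix_apply, ← RingHom.map_det]
    exact fun h => hP0 (ha.eq_zero_of_aeval_eq_zero _ h)
  set c : Expo d → ℂ := fun t => (f.coeff t.1.1).coeff t.1.2 with hc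
  have hMc : (M.map φ) *ᵥ c = 0 := by
    funext r
    rw [Matrix.mulVec, dotProduct]
    by_cases h : (r.2.1 : ℕ) + (r.2.2 : ℕ) < m r.1
    · have := hm r.1 _ _ h
      rw [eq_polyOf hf, tcoeff_polyOf] at this
      rw [Pi.zero_apply, ← this]
      refine Finset.sum_congr rfl fun t _ => ?_
      simp [M, E, h, φ, c]
      ring
    · exact Finset.sum_eq_zero fun t _ => by simp [M, E, h]
  have hc0 : c = 0 := Matrix.eq_zero_of_mulVec_eq_zero hdet (by
    rw [hQ, Matrix.map_mul, ← Matrix.mulVec_mulVec, hMc, Matrix.mulVec_zero])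
  rw [eq_polyOf hf, ← hc, hc0]
  simp [polyOf]

theorem card_expo (d : ℕ) : 2 * Fintype.card (Expo d) = (d + 1) * (d + 2) := by
  classical
  have h : Fintype.card (Expo d) = ∑ i ∈ range (d + 1), (d + 1 - i) := by
    rw [Fintype.card_subtype, Finset.card_filter, Fintype.sum_prod_type, ← Fin.sum_univ_eq_sum_range]
    refine Finset.sum_congr rfl fun i _ => ?_
    rw [← Finset.card_filter, show (univ.filter fun j : Fin (d + 1) => (i : ℕ) + (j : ℕ) ≤ d)
      = Finset.Iic ⟨d - i, by omega⟩ by ext j; simp [Fin.le_def]; omega, Fin.card_Iic]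
    simp
    omega
  rw [h]
  clear h
  induction d with
  | zero => simp
  | succ k ih =>
    rw [Finset.sum_range_succ' _ (k + 1)]
    simp only [Nat.succ_sub_succ_eq_sub, Nat.sub_zero, mul_add] at *
    linarith

/-- Some configuration of `(d + 1)(d + 2) / 2` rational points lies on no curve of degree `d`. -/
theorem exists_unisolvent (d : ℕ) :
    ∃ (s : ℕ) (g : Fin s → Fin 2 → ℚ), s ≤ Fintype.card (Expo d) ∧
      ∀ f : Polynomial (Polynomial ℚ), DegLE f d → (∀ i, MultGE f (g i 0) (g i 1) 1) → f = 0 := by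
  classical
  let v : ℚ × ℚ → Expo d → ℚ := fun p t => p.1 ^ (t.1.1 : ℕ) * p.2 ^ (t.1.2 : ℕ)
  obtain ⟨w, hw, hspan, -⟩ := Submodule.exists_fun_fin_finrank_span_eq ℚ (Set.range v)
  choose p hp using hw
  refine ⟨_, fun i => ![(p i).1, (p i).2],
    (Submodule.finrank_le _).trans (le_of_eq (Module.finrank_fintype_fun_eq_card ℚ)),
    fun f hf hg => ?_⟩
  set c : Expo d → ℚ := fun t => (f.coeff t.1.1).coeff t.1.2
  have hev : ∀ q : ℚ × ℚ, tcoeff f q.1 q.2 0 0 = ∑ t, c t * v q t := fun q => by
    conv_lhs => rw [eq_polyOf hf, tcoeff_polyOf]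
    exact Finset.sum_congr rfl fun t _ => by simp [c, v]
  let L : (Expo d → ℚ) →ₗ[ℚ] ℚ := ∑ t, c t • LinearMap.proj t
  have hLv : ∀ q, L (v q) = tcoeff f q.1 q.2 0 0 := fun q => by simp [L, hev]
  have hsub : Submodule.span ℚ (Set.range v) ≤ LinearMap.ker L := by
    rw [← hspan, Submodule.span_le]
    rintro _ ⟨i, rfl⟩
    rw [SetLike.mem_coe, LinearMap.mem_ker, ← hp i, hLv]
    simpa using hg i 0 0 one_pos
  by_contra hne
  have hgrid := grid_bound (K := d + 1) hf hne
    ((Finset.range (d + 1)).image (fun n : ℕ => (n : ℚ)))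
    ((Finset.range (d + 1)).image (fun n : ℕ => (n : ℚ)))
    (Finset.card_image_le.trans (by simp)) (Finset.card_image_le.trans (by simp)) (fun _ _ => 1)
    fun a _ b _ i j hij => by
      obtain ⟨rfl, rfl⟩ : i = 0 ∧ j = 0 := by omega
      rw [← hLv (a, b)]
      exact hsub (Submodule.subset_span ⟨(a, b), rfl⟩)
  simp [Finset.card_image_of_injective _ (Nat.cast_injective (R := ℚ))] at hgrid

/-- Nagata's inequality for degrees `d` with `d (d + 3) ≤ 2 K ^ 2` and `K ^ 2 < r`, at points with
algebraically independent coordinates, for every multiplicity vector. -/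
theorem result :
    ∀ (r : ℕ) (a : Fin r → Fin 2 → ℂ),
      AlgebraicIndependent ℚ (fun p : Fin r × Fin 2 => a p.1 p.2) →
      ∀ (d : ℕ) (f : Polynomial (Polynomial ℂ)), f ≠ 0 → DegLE f d →
      ∀ m : Fin r → ℕ, (∀ i, MultGE f (a i 0) (a i 1) (m i)) →
      ∀ K : ℕ, d * (d + 3) ≤ 2 * K ^ 2 →
        ∑ i, m i ≤ d * K ∧ (1 ≤ d → K ^ 2 < r → (∑ i, (m i : ℝ)) < d * Real.sqrt r) := by
  intro r a ha d f hf0 hf m hm K hK
  classical
  set S := univ.filter fun i => 0 < m i with hS
  have hSm : ∑ i ∈ S, m i = ∑ i, m i := Finset.sum_filter_of_ne fun i _ h => Nat.pos_of_ne_zero h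
  have hsum : ∑ i, m i ≤ d * K := by
    have hcard : S.card < Fintype.card (Expo d) := by
      by_contra! h
      obtain ⟨s, g, hs, hg⟩ := exists_unisolvent d
      obtain ⟨e⟩ : Nonempty (Fin s ↪ S) :=
        Function.Embedding.nonempty_of_card_le (by simp; omega)
      refine hf0 (specialize (fun _ => 1) g hg (fun i => a (e i)) ?_ f hf fun i u v huv =>
        hm (e i) u v (by have := (mem_filter.1 (e i).2).2; omega))
      exact ha.comp (fun p : Fin s × Fin 2 => ((e p.1 : Fin r), p.2)) fun p q h => by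
        simp only [Prod.mk.injEq] at h
        exact Prod.ext (e.injective (Subtype.ext h.1)) h.2
    have h2 := card_expo d
    obtain ⟨e⟩ : Nonempty (S ↪ Fin K × Fin K) :=
      Function.Embedding.nonempty_of_card_le (by simp; nlinarith)
    by_contra! hlt
    refine hf0 (specialize (fun i : S => m i)
      (fun i => ![((e i).1 : ℕ), ((e i).2 : ℕ)]) (fun q hq hqm => ?_) (fun i : S => a i)
      (ha.comp (fun p : S × Fin 2 => ((p.1 : Fin r), p.2)) fun p q h => by
        simp only [Prod.mk.injEq] at h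
        exact Prod.ext (Subtype.ext h.1) h.2) f hf fun i => hm i)
    by_contra hq0
    set A := (univ : Finset (Fin K)).image (fun n : Fin K => ((n : ℕ) : ℚ)) with hA
    have hinj : Function.Injective fun n : Fin K => ((n : ℕ) : ℚ) := fun x y h =>
      Fin.ext (Nat.cast_injective (R := ℚ) h)
    have hgrid := grid_bound (K := K) hq hq0 A A
      (Finset.card_image_le.trans (by simp)) (Finset.card_image_le.trans (by simp))
      (fun u v => ∑ i : S, if ((((e i).1 : ℕ) : ℚ), (((e i).2 : ℕ) : ℚ)) = (u, v) then m i else 0)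
      fun u _ v _ => by
        by_cases h : ∃ i : S, ((((e i).1 : ℕ) : ℚ), (((e i).2 : ℕ) : ℚ)) = (u, v)
        · obtain ⟨i, hi⟩ := h
          rw [Finset.sum_eq_single i (fun j _ hj => if_neg fun hj' => hj (e.injective (by
            have h' := hj'.trans hi.symm
            simp only [Prod.mk.injEq, Nat.cast_inj] at h'
            exact Prod.ext (Fin.ext h'.1) (Fin.ext h'.2)))) (by simp), if_pos hi]
          simp only [Prod.mk.injEq] at hi
          rw [← hi.1, ← hi.2]
          simpa using hqm i
        · rw [Finset.sum_eq_zero fun i _ => if_neg fun hi => h ⟨i, hi⟩]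
          exact fun i j hij => absurd hij (Nat.not_lt_zero _)
    simp only [hA, Finset.sum_image fun x _ y _ h => hinj h] at hgrid
    have hcount : ∑ v : Fin K, ∑ u : Fin K, ∑ i : S,
        (if ((((e i).1 : ℕ) : ℚ), (((e i).2 : ℕ) : ℚ)) = (((u : ℕ) : ℚ), ((v : ℕ) : ℚ)) then m i
          else 0) = ∑ i ∈ S, m i := by
      rw [← Fintype.sum_prod_type' (f := fun v u : Fin K => ∑ i : S,
        if ((((e i).1 : ℕ) : ℚ), (((e i).2 : ℕ) : ℚ)) = (((u : ℕ) : ℚ), ((v : ℕ) : ℚ)) then m i
          else 0), Finset.sum_comm, ← Finset.sum_coe_sort S]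
      refine Finset.sum_congr rfl fun i _ => ?_
      rw [Finset.sum_eq_single ((e i).2, (e i).1) (fun x _ hx => if_neg fun h => hx ?_) (by simp)]
      · simp
      · simp only [Prod.mk.injEq, Nat.cast_inj] at h
        exact Prod.ext (Fin.ext h.2.symm) (Fin.ext h.1.symm)
    rw [hcount] at hgrid
    omega
  refine ⟨hsum, fun hd hKr => ?_⟩
  have h1 : (∑ i, (m i : ℝ)) ≤ d * K := by exact_mod_cast hsum
  refine h1.trans_lt (mul_lt_mul_of_pos_left ?_ (by exact_mod_cast hd))
  rw [Real.lt_sqrt (Nat.cast_nonneg _)]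
  exact_mod_cast hKr

end

end Vale.Agent.Results.P279.LowDegree
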